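import Vale.Agent.Lib.P063.Main

namespace Vale.Agent.Results.P063.HypergraphWidthLower

open Vale.Agent.Lib.P063

/-- For every uniformity `r ≥ 2` there are `c > 0` and `n₀` such that for every `n ≥ n₀` some
nontrivial increasing `r`-uniform hypergraph property on `n` vertices has threshold width at least
`c * log ((1 - ε) / ε) * (log n) ^ (-r / (r - 1))` for every `ε` with `1 / n ≤ ε < 1 / 2`. -/
theorem result :
    ∀ r : ℕ, 2 ≤ r → ∃ c : ℝ, 0 < c ∧ ∃ n₀ : ℕ, ∀ n : ℕ, n₀ ≤ n →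
      ∃ P : Set (Finset (Edge n r)),
        IsHypergraphProperty P ∧ IsUpperSet P ∧ P.Nonempty ∧ P ≠ Set.univ ∧
        ∀ ε : ℝ, 1 / (n : ℝ) ≤ ε → ε < 1 / 2 →
          c * Real.log ((1 - ε) / ε) * (Real.log (n : ℝ)) ^ (-(r : ℝ) / ((r : ℝ) - 1))
            ≤ width ε P :=
  fun r hr => hypergraph_width_lower r hr

end Vale.Agent.Results.P063.HypergraphWidthLower
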